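import Vale.Agent.P116.Cl.E0Spec

/-!
# Block E0a: integration by parts with difference quotients
-/

open Set Filter Topology Metric Bornology MeasureTheory
open scoped ComplexConjugate Real

namespace Vale.Agent.P116.Cl

open FK Ms H906

section

variable {Ω : Set ℂ} {U ρ ψ : ℂ → ℝ}

lemma Maj.continuousOn (h : Maj Ω U ρ) : ContinuousOn U Ω := by
  intro a ha
  obtain ⟨δ, hδ, hL⟩ := h.lip a ha 1 one_pos
  have hnn : 0 ≤ ρ a + 1 := by have := h.nn a ha; linarith
  have : LipschitzOnWith (Real.toNNReal (ρ a + 1)) U (ball a δ) := by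
    apply LipschitzOnWith.of_dist_le_mul
    intro x hx y hy
    rw [Real.coe_toNNReal _ hnn, Real.dist_eq, dist_eq_norm]
    exact hL x hx y hy
  exact (this.continuousOn.continuousAt (ball_mem_nhds a hδ)).continuousWithinAt

/-- the local Lipschitz estimate, uniformly on compact subsets -/
lemma Maj.unif (hΩ : IsOpen Ω) (h : Maj Ω U ρ) {T : Set ℂ} (hT : IsCompact T) (hTΩ : T ⊆ Ω)
    {ε : ℝ} (hε : 0 < ε) :
    ∃ δ > 0, ∀ z ∈ T, ∀ y, ‖y - z‖ < δ → |U y - U z| ≤ (ρ z + ε) * ‖y - z‖ := by
  have key : ∃ δ > 0, ∀ z ∈ T, z ∈ T → ∀ y, ‖y - z‖ < δ →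
      |U y - U z| ≤ (ρ z + ε) * ‖y - z‖ := by
    refine hT.induction_on (p := fun s => ∃ δ > 0, ∀ z ∈ s, z ∈ T → ∀ y, ‖y - z‖ < δ →
      |U y - U z| ≤ (ρ z + ε) * ‖y - z‖) ?_ ?_ ?_ ?_
    · exact ⟨1, one_pos, fun z hz => hz.elim⟩
    · rintro s t hst ⟨δ, hδ, hz⟩
      exact ⟨δ, hδ, fun z hzs => hz z (hst hzs)⟩
    · rintro s t ⟨δ, hδ, hz⟩ ⟨δ', hδ', hz'⟩
      refine ⟨min δ δ', lt_min hδ hδ', ?_⟩
      rintro z (h1 | h1) h2 y hy
      · exact hz z h1 h2 y (hy.trans_le (min_le_left _ _))
      · exact hz' z h1 h2 y (hy.trans_le (min_le_right _ _))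
    · intro a ha
      obtain ⟨δ₁, hδ₁, hL⟩ := h.lip a (hTΩ ha) (ε / 2) (by positivity)
      have hc : ContinuousAt ρ a := h.cont.continuousAt (hΩ.mem_nhds (hTΩ ha))
      obtain ⟨δ₂, hδ₂, hρ⟩ := Metric.continuousAt_iff.1 hc (ε / 2) (by positivity)
      have hm : 0 < min (δ₁ / 2) δ₂ := lt_min (by positivity) hδ₂
      refine ⟨ball a (min (δ₁ / 2) δ₂), mem_nhdsWithin_of_mem_nhds (ball_mem_nhds a hm),
        min (δ₁ / 2) δ₂, hm, ?_⟩
      intro z hz _ y hy
      have hz1 : dist z a < δ₁ / 2 := lt_of_lt_of_le hz (min_le_left _ _)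
      have hz2 : dist z a < δ₂ := lt_of_lt_of_le hz (min_le_right _ _)
      have hy1 : dist y a < δ₁ := by
        have : dist y z < δ₁ / 2 := by
          rw [dist_eq_norm]
          exact lt_of_lt_of_le hy (min_le_left _ _)
        linarith [dist_triangle y z a]
      have h1 := hL y hy1 z (by rw [mem_ball]; linarith)
      have h2 := hρ hz2
      rw [Real.dist_eq] at h2
      have h3 : ρ a ≤ ρ z + ε / 2 := by
        have := (abs_lt.1 h2).1
        linarith
      calc |U y - U z| ≤ (ρ a + ε / 2) * ‖y - z‖ := h1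
        _ ≤ (ρ z + ε) * ‖y - z‖ := by
          apply mul_le_mul_of_nonneg_right _ (norm_nonneg _)
          linarith
  obtain ⟨δ, hδ, hz⟩ := key
  exact ⟨δ, hδ, fun z hzT => hz z hzT hzT⟩

lemma e0a_dir (hΩ : IsOpen Ω) (h : Maj Ω U ρ) (hψ : ContDiff ℝ 1 ψ) (hc : HasCompactSupport ψ)
    (hT : tsupport ψ ⊆ Ω) (hn : ∀ z, 0 ≤ ψ z) {e : ℂ} (he : ‖e‖ = 1) :
    -(∫ z, fderiv ℝ ψ z e * U z) ≤ ∫ z, ψ z * ρ z := by
  set T := tsupport ψ with hTdef
  have hTc : IsCompact T := hc
  obtain ⟨r₀, hr₀, hK1Ω⟩ := hTc.exists_cthickening_subset_open hΩ hT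
  set K1 := cthickening r₀ T with hK1
  have hK1c : IsCompact K1 := hTc.cthickening
  have hTK1 : T ⊆ K1 := self_subset_cthickening T
  set W := K1.indicator U with hW
  have hWi : Integrable W := by
    rw [hW, integrable_indicator_iff hK1c.isClosed.measurableSet]
    exact (h.continuousOn.mono hK1Ω).integrableOn_compact hK1c
  have hWT : ∀ z ∈ K1, W z = U z := fun z hz => indicator_of_mem hz U
  have hψ0 : ∀ z, z ∉ T → ψ z = 0 := fun z hz => image_eq_zero_of_notMem_tsupport hz
  have hψc : Continuous ψ := hψ.continuous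
  have hd0 : ∀ z, z ∉ T → fderiv ℝ ψ z = 0 := fun z hz => by
    have := (tsupport_fderiv_subset ℝ (f := ψ)).trans le_rfl
    exact image_eq_zero_of_notMem_tsupport (fun h' => hz (this h'))
  have hUW : ∫ z, fderiv ℝ ψ z e * U z = ∫ z, fderiv ℝ ψ z e * W z := by
    apply integral_congr_ae
    refine Eventually.of_forall fun z => ?_
    by_cases hz : z ∈ T
    · simp only [hWT z (hTK1 hz)]
    · simp [hd0 z hz]
  rw [hUW]
  -- the limit of the difference quotients
  have hA : Tendsto (fun t : ℝ => ∫ z, (t⁻¹ * (ψ z - ψ (z - t • e))) * W z) (𝓝[>] 0)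
      (𝓝 (∫ z, fderiv ℝ ψ z e * W z)) := by
    obtain ⟨L, hL⟩ := hψ.lipschitzWith_of_hasCompactSupport hc (by simp)
    apply tendsto_integral_filter_of_dominated_convergence (fun z => L * ‖W z‖)
    · refine Eventually.of_forall fun t => ?_
      have : Continuous fun z => t⁻¹ * (ψ z - ψ (z - t • e)) := by fun_prop
      exact this.aestronglyMeasurable.mul hWi.aestronglyMeasurable
    · refine eventually_mem_nhdsWithin.mono fun t ht => ?_
      refine Eventually.of_forall fun z => ?_
      have ht' : (0:ℝ) < t := ht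
      rw [norm_mul]
      apply mul_le_mul_of_nonneg_right _ (norm_nonneg _)
      rw [norm_mul, norm_inv, Real.norm_of_nonneg ht'.le]
      have h1 := hL.dist_le_mul z (z - t • e)
      rw [dist_eq_norm, dist_eq_norm, sub_sub_cancel, norm_smul, he, mul_one,
        Real.norm_of_nonneg ht'.le] at h1
      rw [inv_mul_le_iff₀ ht']
      linarith
    · exact hWi.norm.const_mul _
    · refine Eventually.of_forall fun z => ?_
      have h1 : HasDerivAt (fun t : ℝ => ψ (z - t • e)) (-(fderiv ℝ ψ z e)) 0 := by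
        have h2 : HasFDerivAt ψ (fderiv ℝ ψ z) (z - (0:ℝ) • e) := by
          simpa using (hψ.differentiable (by simp) z).hasFDerivAt
        have h3 : HasDerivAt (fun t : ℝ => z - t • e) (-e) 0 := by
          have := ((hasDerivAt_id (0:ℝ)).smul_const e).const_sub z
          simpa using this
        have := h2.comp_hasDerivAt (0:ℝ) h3
        simpa [Function.comp_def] using this
      have h4 := hasDerivAt_iff_tendsto_slope_zero.1 h1
      have h5 : Tendsto (fun t : ℝ => t⁻¹ * (ψ z - ψ (z - t • e))) (𝓝[>] 0)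
          (𝓝 (fderiv ℝ ψ z e)) := by
        have h6 := (h4.mono_left (nhdsWithin_mono 0 (fun x (hx : 0 < x) => hx.ne'))).neg
        rw [neg_neg] at h6
        refine h6.congr fun t => ?_
        simp only [zero_add, zero_smul, sub_zero, smul_eq_mul]
        ring
      exact h5.mul_const _
  have hψρ : Integrable fun z => ψ z * ρ z := by
    have h1 : ContinuousOn (fun z => ψ z * ρ z) Ω := hψc.continuousOn.mul h.cont
    have h2 : tsupport (fun z => ψ z * ρ z) ⊆ T := tsupport_mul_subset_left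
    have h3 : Continuous (fun z => ψ z * ρ z) :=
      h1.continuous_of_tsupport_subset hΩ (h2.trans hT)
    exact h3.integrable_of_hasCompactSupport (hc.mul_right)
  have hψi : Integrable ψ := hψc.integrable_of_hasCompactSupport hc
  -- the estimate
  have hB : ∀ ε > 0, -(∫ z, fderiv ℝ ψ z e * W z) ≤ (∫ z, ψ z * ρ z) + ε * ∫ z, ψ z := by
    intro ε hε
    obtain ⟨δ, hδ, hU⟩ := h.unif hΩ hTc hT hε
    have hlim : Tendsto (fun t : ℝ => -∫ z, (t⁻¹ * (ψ z - ψ (z - t • e))) * W z) (𝓝[>] 0)
        (𝓝 (-∫ z, fderiv ℝ ψ z e * W z)) := hA.neg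
    refine le_of_tendsto hlim ?_
    have hmem : Ioo (0:ℝ) (min r₀ δ) ∈ 𝓝[>] (0:ℝ) := Ioo_mem_nhdsGT (lt_min hr₀ hδ)
    filter_upwards [hmem] with t ht
    have ht0 : 0 < t := ht.1
    have htr : t < r₀ := ht.2.trans_le (min_le_left _ _)
    have htδ : t < δ := ht.2.trans_le (min_le_right _ _)
    obtain ⟨M, hM⟩ := hc.exists_bound_of_continuous hψc
    have hi1 : Integrable fun z => ψ z * W z := by
      refine hWi.bdd_mul (c := M) hψc.aestronglyMeasurable ?_
      exact Eventually.of_forall hM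
    have hWs : Integrable fun z => W (z + t • e) := hWi.comp_add_right (t • e)
    have hi2 : Integrable fun z => ψ z * W (z + t • e) := by
      refine hWs.bdd_mul (c := M) hψc.aestronglyMeasurable ?_
      exact Eventually.of_forall hM
    have hi3 : Integrable fun z => ψ (z - t • e) * W z := by
      refine hWi.bdd_mul (c := M) (by fun_prop) ?_
      exact Eventually.of_forall fun z => hM _
    have hsh : ∫ z, ψ (z - t • e) * W z = ∫ z, ψ z * W (z + t • e) := by
      have := integral_sub_right_eq_self (μ := volume) (fun z => ψ z * W (z + t • e)) (t • e)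
      rw [← this]
      simp
    have e1 : -∫ z, (t⁻¹ * (ψ z - ψ (z - t • e))) * W z =
        ∫ z, ψ z * (t⁻¹ * (W (z + t • e) - W z)) := by
      have e2 : ∫ z, (t⁻¹ * (ψ z - ψ (z - t • e))) * W z =
          t⁻¹ * ((∫ z, ψ z * W z) - ∫ z, ψ (z - t • e) * W z) := by
        rw [← integral_sub hi1 hi3, ← integral_const_mul]
        congr 1
        ext z
        ring
      have e3 : ∫ z, ψ z * (t⁻¹ * (W (z + t • e) - W z)) =
          t⁻¹ * ((∫ z, ψ z * W (z + t • e)) - ∫ z, ψ z * W z) := by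
        rw [← integral_sub hi2 hi1, ← integral_const_mul]
        congr 1
        ext z
        ring
      rw [e2, e3, hsh]
      ring
    rw [e1, ← integral_const_mul, ← integral_add hψρ (hψi.const_mul ε)]
    apply integral_mono
    · have : (fun z => ψ z * (t⁻¹ * (W (z + t • e) - W z))) =
          fun z => t⁻¹ * (ψ z * W (z + t • e) - ψ z * W z) := by
        ext z
        ring
      rw [this]
      exact (hi2.sub hi1).const_mul _
    · exact hψρ.add (hψi.const_mul ε)
    · intro z
      show ψ z * (t⁻¹ * (W (z + t • e) - W z)) ≤ ψ z * ρ z + ε * ψ z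
      by_cases hz : z ∈ T
      · have hz1 : z + t • e ∈ K1 := by
          apply mem_cthickening_of_dist_le _ z _ _ hz
          rw [dist_eq_norm, add_sub_cancel_left, norm_smul, he, mul_one,
            Real.norm_of_nonneg ht0.le]
          exact htr.le
        rw [hWT z (hTK1 hz), hWT _ hz1]
        have h1 := hU z hz (z + t • e) (by
          rw [add_sub_cancel_left, norm_smul, he, mul_one, Real.norm_of_nonneg ht0.le]
          exact htδ)
        rw [add_sub_cancel_left, norm_smul, he, mul_one, Real.norm_of_nonneg ht0.le] at h1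
        have h2 : t⁻¹ * (U (z + t • e) - U z) ≤ ρ z + ε := by
          rw [inv_mul_le_iff₀ ht0]
          calc U (z + t • e) - U z ≤ |U (z + t • e) - U z| := le_abs_self _
            _ ≤ (ρ z + ε) * t := h1
            _ = t * (ρ z + ε) := by ring
        calc ψ z * (t⁻¹ * (U (z + t • e) - U z)) ≤ ψ z * (ρ z + ε) :=
              mul_le_mul_of_nonneg_left h2 (hn z)
          _ = ψ z * ρ z + ε * ψ z := by ring
      · simp [hψ0 z hz]
  -- let ε tend to 0
  have hI : 0 ≤ ∫ z, ψ z := integral_nonneg hn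
  refine le_of_forall_pos_le_add fun ε hε => ?_
  have h1 := hB (ε / ((∫ z, ψ z) + 1)) (by positivity)
  refine h1.trans ?_
  have h2 : ε / ((∫ z, ψ z) + 1) * ∫ z, ψ z ≤ ε := by
    rw [div_mul_eq_mul_div, div_le_iff₀ (by positivity)]
    nlinarith
  linarith

end

theorem e0a : E0a := by
  intro Ω hΩ U V ρ hU hV ψ hψ hc hT hn
  have hψr : ContDiff ℝ 1 ψ := by
    have := Complex.reCLM.contDiff.comp hψ
    simpa [Function.comp_def] using this
  have hd : Differentiable ℝ ψ := hψr.differentiable (by simp)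
  have hdb : ∀ z, db (fun z => ((ψ z : ℝ) : ℂ)) z =
      ((fderiv ℝ ψ z 1 : ℝ) : ℂ) + Complex.I * ((fderiv ℝ ψ z Complex.I : ℝ) : ℂ) := by
    intro z
    have h1 : HasFDerivAt (fun z => ((ψ z : ℝ) : ℂ)) (Complex.ofRealCLM.comp (fderiv ℝ ψ z)) z :=
      Complex.ofRealCLM.hasFDerivAt.comp z (hd z).hasFDerivAt
    rw [db, h1.fderiv]
    simp
  set T := tsupport ψ with hTdef
  have hd0 : ∀ z, z ∉ T → fderiv ℝ ψ z = 0 := fun z hz => by
    have := (tsupport_fderiv_subset ℝ (f := ψ)).trans le_rfl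
    exact image_eq_zero_of_notMem_tsupport (fun h' => hz (this h'))
  have hcf : Continuous (fderiv ℝ ψ) := hψr.continuous_fderiv (by simp)
  have hint : ∀ (e : ℂ) {u : ℂ → ℝ}, ContinuousOn u Ω →
      Integrable fun z => fderiv ℝ ψ z e * u z := by
    intro e u hu
    have hc1 : Continuous fun z => fderiv ℝ ψ z e := by fun_prop
    have h1 : ContinuousOn (fun z => fderiv ℝ ψ z e * u z) Ω := hc1.continuousOn.mul hu
    have hsub : Function.support (fun z => fderiv ℝ ψ z e * u z) ⊆ T := by
      intro z hz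
      by_contra hzT
      exact hz (by simp [hd0 z hzT])
    have h2 : tsupport (fun z => fderiv ℝ ψ z e * u z) ⊆ T :=
      closure_minimal hsub (isClosed_tsupport ψ)
    have h3 : Continuous (fun z => fderiv ℝ ψ z e * u z) :=
      h1.continuous_of_tsupport_subset hΩ (h2.trans hT)
    exact h3.integrable_of_hasCompactSupport (HasCompactSupport.of_support_subset_isCompact hc hsub)
  have hre : (∫ z, db (fun z => ((ψ z : ℝ) : ℂ)) z * conj ((U z : ℂ) + V z * Complex.I)).re =
      (∫ z, fderiv ℝ ψ z 1 * U z) + ∫ z, fderiv ℝ ψ z Complex.I * V z := by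
    have h1 : (fun z => db (fun z => ((ψ z : ℝ) : ℂ)) z * conj ((U z : ℂ) + V z * Complex.I)) =
        fun z => (((fderiv ℝ ψ z 1 * U z + fderiv ℝ ψ z Complex.I * V z : ℝ)) : ℂ) +
          ((fderiv ℝ ψ z Complex.I * U z - fderiv ℝ ψ z 1 * V z : ℝ) : ℂ) * Complex.I := by
      ext z
      rw [hdb z]
      apply Complex.ext
      · simp
      · simp
        ring
    rw [h1]
    have i1 := hint 1 hU.continuousOn
    have i2 := hint Complex.I hV.continuousOn
    have i3 := hint Complex.I hU.continuousOn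
    have i4 := hint 1 hV.continuousOn
    rw [integral_add]
    · rw [Complex.add_re, integral_complex_ofReal, integral_mul_const, integral_complex_ofReal,
        ← integral_add i1 i2]
      simp
    · exact (i1.add i2).ofReal
    · exact ((i3.sub i4).ofReal).mul_const _
  rw [hre]
  have k1 := e0a_dir hΩ hU hψr hc hT hn (e := 1) (by simp)
  have k2 := e0a_dir hΩ hV hψr hc hT hn (e := Complex.I) (by simp)
  linarith

end Vale.Agent.P116.Cl
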